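import Vale.Agent.P141.H958.WeakW

/-!
# P141, line (A): generations of affected squares

`cnt N Q k n m` : the number of the affected squares which contain the cell `(n, m)` of scale `k`.

* `deep` : under packing `B`, the affected squares with `cnt > lam` have the mass
  `≤ B (1 - 1 / B) ^ lam 4 ^ N`;
* `gen_unique`, `gen_card` : at a point, the affected squares with `cnt = c` are at most one;
* `low_card` : at a point, the affected squares with `cnt ≤ lam` are at most `lam`.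
-/

namespace Vale.Agent.P141.H856

open Finset Vale.Agent.P141.PL
open Vale.Agent.P141.H958 (Aff PackQ mem_Aff)

noncomputable section

open scoped Classical

/-- the number of the affected squares which contain the cell `(n, m)` of scale `k` -/
def cnt (N : ℕ) (Q : ℕ → ℤ → ℤ → Prop) (k : ℕ) (n m : ℤ) : ℕ :=
  ((Ico k N).filter fun j => Q j (ix (j - k) n) (ix (j - k) m)).card

theorem ix_up {k j : ℕ} (h : k + 1 ≤ j) (n : ℤ) : ix (j - (k + 1)) (ix 1 n) = ix (j - k) n := by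
  rw [ix_ix]
  congr 1
  omega

theorem cnt_top {N : ℕ} {Q : ℕ → ℤ → ℤ → Prop} {k : ℕ} (hk : N ≤ k) (n m : ℤ) :
    cnt N Q k n m = 0 := by
  unfold cnt
  rw [Ico_eq_empty (by omega), filter_empty, card_empty]

theorem cnt_step {N : ℕ} {Q : ℕ → ℤ → ℤ → Prop} {k : ℕ} (hk : k < N) (n m : ℤ) :
    cnt N Q k n m = (if Q k n m then 1 else 0) + cnt N Q (k + 1) (ix 1 n) (ix 1 m) := by
  have e1 : Ico k N = insert k (Ico (k + 1) N) := by
    ext j
    rw [mem_insert, mem_Ico, mem_Ico]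
    omega
  have e2 : ((Ico (k + 1) N).filter fun j => Q j (ix (j - k) n) (ix (j - k) m)) =
      (Ico (k + 1) N).filter fun j => Q j (ix (j - (k + 1)) (ix 1 n)) (ix (j - (k + 1)) (ix 1 m)) := by
    refine filter_congr fun j hj => ?_
    rw [ix_up (mem_Ico.1 hj).1, ix_up (mem_Ico.1 hj).1]
  have h0 : ix (k - k) n = n := by rw [Nat.sub_self, ix_zero]
  have h0' : ix (k - k) m = m := by rw [Nat.sub_self, ix_zero]
  unfold cnt
  rw [e1, filter_insert, e2, h0, h0']
  split_ifs with hq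
  · rw [card_insert_of_notMem, add_comm]
    rw [mem_filter, mem_Ico]
    omega
  · rw [zero_add]

/-- larger cells have fewer affected ancestors -/
theorem cnt_mono {N : ℕ} {Q : ℕ → ℤ → ℤ → Prop} {k : ℕ} (r : ℕ) (n m : ℤ) :
    cnt N Q (k + r) (ix r n) (ix r m) ≤ cnt N Q k n m := by
  induction r generalizing k n m with
  | zero => rw [ix_zero, ix_zero]; rfl
  | succ r ih =>
    rcases lt_or_ge k N with hk | hk
    · have h1 := ih (k := k + 1) (ix 1 n) (ix 1 m)
      have e : k + 1 + r = k + (r + 1) := by omega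
      rw [e, ix_ix, ix_ix, Nat.add_comm 1 r] at h1
      rw [cnt_step hk]
      omega
    · rw [cnt_top (by omega)]
      exact Nat.zero_le _

/-- strictly fewer if the small cell is affected -/
theorem cnt_lt {N : ℕ} {Q : ℕ → ℤ → ℤ → Prop} {k r : ℕ} {n m : ℤ} (hk : k < N) (hr : 1 ≤ r)
    (hQ : Q k n m) : cnt N Q (k + r) (ix r n) (ix r m) < cnt N Q k n m := by
  have h1 := cnt_mono (N := N) (Q := Q) (k := k + 1) (r - 1) (ix 1 n) (ix 1 m)
  have e : k + 1 + (r - 1) = k + r := by omega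
  have e' : 1 + (r - 1) = r := by omega
  rw [e, ix_ix, ix_ix, e'] at h1
  rw [cnt_step hk, if_pos hQ]
  omega

theorem cnt_pos {N : ℕ} {Q : ℕ → ℤ → ℤ → Prop} {k : ℕ} {n m : ℤ} (hk : k < N) (hQ : Q k n m) :
    1 ≤ cnt N Q k n m := by
  rw [cnt_step hk, if_pos hQ]
  omega

/-- every generation up to `cnt` is met -/
theorem cnt_anc {N : ℕ} {Q : ℕ → ℤ → ℤ → Prop} {c : ℕ} (hc : 1 ≤ c) :
    ∀ (d k : ℕ) (n m : ℤ), N ≤ k + d → c ≤ cnt N Q k n m →
      ∃ j, k ≤ j ∧ j < N ∧ Q j (ix (j - k) n) (ix (j - k) m) ∧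
        cnt N Q j (ix (j - k) n) (ix (j - k) m) = c := by
  intro d
  induction d with
  | zero =>
    intro k n m hk h
    rw [cnt_top (by omega)] at h
    omega
  | succ d ih =>
    intro k n m hk h
    rcases lt_or_ge k N with hkN | hkN
    swap
    · rw [cnt_top hkN] at h
      omega
    have up : c ≤ cnt N Q (k + 1) (ix 1 n) (ix 1 m) →
        ∃ j, k ≤ j ∧ j < N ∧ Q j (ix (j - k) n) (ix (j - k) m) ∧
          cnt N Q j (ix (j - k) n) (ix (j - k) m) = c := by
      intro h1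
      obtain ⟨j, hj1, hj2, hj3, hj4⟩ := ih (k + 1) (ix 1 n) (ix 1 m) (by omega) h1
      rw [ix_up hj1, ix_up hj1] at hj3 hj4
      exact ⟨j, by omega, hj2, hj3, hj4⟩
    rcases lt_or_ge (cnt N Q (k + 1) (ix 1 n) (ix 1 m)) c with h1 | h1
    · have h2 := cnt_step (Q := Q) hkN n m
      by_cases hQ : Q k n m
      · rw [if_pos hQ] at h2
        refine ⟨k, le_rfl, hkN, ?_, ?_⟩
        · rw [Nat.sub_self, ix_zero, ix_zero]
          exact hQ
        · rw [Nat.sub_self, ix_zero, ix_zero]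
          omega
      · rw [if_neg hQ] at h2
        omega
    · exact up h1

/-! ### Geometric decay of the generations -/

/-- mass of the affected squares with at least `c` affected ancestors -/
def tl (N : ℕ) (R S : ℤ) (Q : ℕ → ℤ → ℤ → Prop) (c : ℕ) : ℝ :=
  ∑ i ∈ (Aff N R S Q).filter (fun i => c ≤ cnt N Q i.1 i.2.1 i.2.2), (4 : ℝ) ^ i.1

/-- mass of the generation `c` -/
def gn (N : ℕ) (R S : ℤ) (Q : ℕ → ℤ → ℤ → Prop) (c : ℕ) : ℝ :=
  ∑ i ∈ (Aff N R S Q).filter (fun i => cnt N Q i.1 i.2.1 i.2.2 = c), (4 : ℝ) ^ i.1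

theorem tl_split (N : ℕ) (R S : ℤ) (Q : ℕ → ℤ → ℤ → Prop) (c : ℕ) :
    tl N R S Q c = gn N R S Q c + tl N R S Q (c + 1) := by
  unfold tl gn
  rw [← sum_union]
  · congr 1
    ext i
    simp only [mem_union, mem_filter]
    constructor
    · rintro ⟨h1, h2⟩
      rcases Nat.lt_or_ge c (cnt N Q i.1 i.2.1 i.2.2) with h | h
      · exact Or.inr ⟨h1, h⟩
      · exact Or.inl ⟨h1, by omega⟩
    · rintro (⟨h1, h2⟩ | ⟨h1, h2⟩)
      · exact ⟨h1, by omega⟩
      · exact ⟨h1, by omega⟩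
  · rw [disjoint_left]
    intro i h1 h2
    have h3 := (mem_filter.1 h1).2
    have h4 := (mem_filter.1 h2).2
    omega

theorem tl_nonneg (N : ℕ) (R S : ℤ) (Q : ℕ → ℤ → ℤ → Prop) (c : ℕ) : 0 ≤ tl N R S Q c :=
  sum_nonneg fun _ _ => by positivity

/-- the packing at the squares of one generation -/
theorem tl_le_gn {N : ℕ} {R S : ℤ} {Q : ℕ → ℤ → ℤ → Prop} {B : ℝ} (h : PackQ N R S Q B) {c : ℕ}
    (hc : 1 ≤ c) : tl N R S Q c ≤ B * gn N R S Q c := by
  set A := Aff N R S Q with hA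
  set P := A.filter (fun i => cnt N Q i.1 i.2.1 i.2.2 = c) with hP
  have h1 : tl N R S Q c ≤ ∑ i ∈ A, ∑ p ∈ P,
      (if i.1 ≤ p.1 ∧ ix (p.1 - i.1) i.2.1 = p.2.1 ∧ ix (p.1 - i.1) i.2.2 = p.2.2 then
        (4 : ℝ) ^ i.1 else 0) := by
    unfold tl
    rw [sum_filter]
    refine sum_le_sum fun i hi => ?_
    split_ifs with hci
    · obtain ⟨hi1, hi2, hi3, hi4⟩ := mem_Aff.1 hi
      obtain ⟨j, hj1, hj2, hj3, hj4⟩ := cnt_anc hc N i.1 i.2.1 i.2.2 (by omega) hci
      have hp : ((j, ix (j - i.1) i.2.1, ix (j - i.1) i.2.2) : ℕ × ℤ × ℤ) ∈ P := by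
        rw [hP, mem_filter, hA, mem_Aff]
        refine ⟨⟨hj2, ?_, ?_, hj3⟩, hj4⟩
        · rw [mem_iv, ix_ix]
          have := mem_iv.1 hi2
          rw [← this]
          congr 1
          show j - i.1 + (N - j) = N - i.1
          omega
        · rw [mem_iv, ix_ix]
          have := mem_iv.1 hi3
          rw [← this]
          congr 1
          show j - i.1 + (N - j) = N - i.1
          omega
      refine le_trans (le_of_eq ?_) (single_le_sum (f := fun p : ℕ × ℤ × ℤ =>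
        (if i.1 ≤ p.1 ∧ ix (p.1 - i.1) i.2.1 = p.2.1 ∧ ix (p.1 - i.1) i.2.2 = p.2.2 then
          (4 : ℝ) ^ i.1 else 0)) (fun p _ => ?_) hp)
      · rw [if_pos ⟨hj1, rfl, rfl⟩]
      · split_ifs
        · positivity
        · exact le_rfl
    · refine sum_nonneg fun p _ => ?_
      split_ifs
      · positivity
      · exact le_rfl
  refine h1.trans ?_
  rw [sum_comm]
  unfold gn
  rw [mul_sum]
  refine sum_le_sum fun p hp => ?_
  rw [← sum_filter]
  have hp1 := (mem_Aff.1 (mem_filter.1 hp).1).1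
  exact h p.1 hp1.le p.2.1 p.2.2

/-- **(X1): geometric decay.** -/
theorem tl_geom {N : ℕ} {R S : ℤ} {Q : ℕ → ℤ → ℤ → Prop} {B : ℝ} (h : PackQ N R S Q B)
    (hB : 1 ≤ B) (lam : ℕ) : tl N R S Q (lam + 1) ≤ B * (1 - B⁻¹) ^ lam * 4 ^ N := by
  have hB0 : 0 < B := by linarith
  have hq : 0 ≤ 1 - B⁻¹ := by
    have := inv_le_one_of_one_le₀ hB
    linarith
  induction lam with
  | zero =>
    have h1 := h N le_rfl R S
    have e : tl N R S Q (0 + 1) ≤ ∑ i ∈ (Aff N R S Q).filter (fun i => i.1 ≤ N ∧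
        ix (N - i.1) i.2.1 = R ∧ ix (N - i.1) i.2.2 = S), (4 : ℝ) ^ i.1 := by
      unfold tl
      refine sum_le_sum_of_subset_of_nonneg ?_ fun _ _ _ => by positivity
      intro i hi
      obtain ⟨hi0, _⟩ := mem_filter.1 hi
      obtain ⟨hi1, hi2, hi3, hi4⟩ := mem_Aff.1 hi0
      exact mem_filter.2 ⟨hi0, hi1.le, mem_iv.1 hi2, mem_iv.1 hi3⟩
    rw [pow_zero, mul_one]
    exact e.trans h1
  | succ lam ih =>
    have h1 := tl_le_gn h (c := lam + 1) (by omega)
    have h2 := tl_split N R S Q (lam + 1)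
    have h3 : tl N R S Q (lam + 1 + 1) ≤ (1 - B⁻¹) * tl N R S Q (lam + 1) := by
      have h4 : B⁻¹ * tl N R S Q (lam + 1) ≤ gn N R S Q (lam + 1) := by
        rw [inv_mul_le_iff₀ hB0]
        exact h1
      linarith
    refine h3.trans ((mul_le_mul_of_nonneg_left ih hq).trans (le_of_eq ?_))
    ring

/-- **(X1) in the letters of `Aff`.** -/
theorem deep {N : ℕ} {R S : ℤ} {Q : ℕ → ℤ → ℤ → Prop} {B : ℝ} (h : PackQ N R S Q B)
    (hB : 1 ≤ B) (lam : ℕ) :
    ∑ i ∈ (Aff N R S Q).filter (fun i => lam < cnt N Q i.1 i.2.1 i.2.2), (4 : ℝ) ^ i.1 ≤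
      B * (1 - B⁻¹) ^ lam * 4 ^ N := tl_geom h hB lam

/-! ### The generations at a point -/

/-- **At a point, one affected square of every generation at most.** -/
theorem gen_unique {N : ℕ} {Q : ℕ → ℤ → ℤ → Prop} {k k' : ℕ} {x y : ℤ} (hk : k < N)
    (hk' : k' < N) (h : Q k (ix k x) (ix k y)) (h' : Q k' (ix k' x) (ix k' y))
    (hc : cnt N Q k (ix k x) (ix k y) = cnt N Q k' (ix k' x) (ix k' y)) : k = k' := by
  have key : ∀ {k k' : ℕ}, k < N → k < k' → Q k (ix k x) (ix k y) →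
      cnt N Q k' (ix k' x) (ix k' y) < cnt N Q k (ix k x) (ix k y) := by
    intro k k' hk hkk hQ
    have h1 := cnt_lt (r := k' - k) hk (by omega) hQ
    have e : k + (k' - k) = k' := by omega
    rw [ix_ix, ix_ix, e] at h1
    exact h1
  rcases lt_trichotomy k k' with h1 | h1 | h1
  · have := key hk h1 h
    omega
  · exact h1
  · have := key hk' h1 h'
    omega

theorem gen_card (N : ℕ) (Q : ℕ → ℤ → ℤ → Prop) (x y : ℤ) (c : ℕ) :
    ((range N).filter fun k => Q k (ix k x) (ix k y) ∧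
      cnt N Q k (ix k x) (ix k y) = c).card ≤ 1 := by
  rw [card_le_one]
  intro k hk k' hk'
  obtain ⟨h1, h2, h3⟩ := mem_filter.1 hk
  obtain ⟨h1', h2', h3'⟩ := mem_filter.1 hk'
  exact gen_unique (mem_range.1 h1) (mem_range.1 h1') h2 h2' (h3.trans h3'.symm)

/-- sum over one generation at a point -/
theorem gen_sum (N : ℕ) (Q : ℕ → ℤ → ℤ → Prop) (x y : ℤ) (c : ℕ) :
    ∑ k ∈ range N, (if Q k (ix k x) (ix k y) ∧ cnt N Q k (ix k x) (ix k y) = c then (1 : ℝ)
      else 0) ≤ 1 := by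
  rw [sum_boole]
  exact_mod_cast gen_card N Q x y c

/-- **At a point, the affected squares with `cnt ≤ lam` are at most `lam`.** -/
theorem low_card (N : ℕ) (Q : ℕ → ℤ → ℤ → Prop) (x y : ℤ) (lam : ℕ) :
    ((range N).filter fun k => Q k (ix k x) (ix k y) ∧
      cnt N Q k (ix k x) (ix k y) ≤ lam).card ≤ lam := by
  have h1 : ((range N).filter fun k => Q k (ix k x) (ix k y) ∧
      cnt N Q k (ix k x) (ix k y) ≤ lam).card ≤ (Icc 1 lam).card := by
    refine card_le_card_of_injOn (fun k => cnt N Q k (ix k x) (ix k y)) ?_ ?_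
    · intro k hk
      obtain ⟨h1, h2, h3⟩ := mem_filter.1 (mem_coe.1 hk)
      exact mem_coe.2 (mem_Icc.2 ⟨cnt_pos (mem_range.1 h1) h2, h3⟩)
    · intro k hk k' hk' he
      obtain ⟨h1, h2, h3⟩ := mem_filter.1 (mem_coe.1 hk)
      obtain ⟨h1', h2', h3'⟩ := mem_filter.1 (mem_coe.1 hk')
      exact gen_unique (mem_range.1 h1) (mem_range.1 h1') h2 h2' he
  rw [Nat.card_Icc] at h1
  omega

/-- the split of a sum over the affected squares at a point: generations and the deep rest -/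
theorem low_split (N : ℕ) (Q : ℕ → ℤ → ℤ → Prop) (x y : ℤ) (lam : ℕ) (f : ℕ → ℝ) :
    ∑ k ∈ range N, (if Q k (ix k x) (ix k y) then f k else 0) =
      ∑ c ∈ Icc 1 lam, ∑ k ∈ range N, (if Q k (ix k x) (ix k y) ∧
        cnt N Q k (ix k x) (ix k y) = c then f k else 0) +
      ∑ k ∈ range N, (if Q k (ix k x) (ix k y) ∧ lam < cnt N Q k (ix k x) (ix k y) then f k
        else 0) := by
  rw [sum_comm, ← sum_add_distrib]
  refine sum_congr rfl fun k hk => ?_
  by_cases hQ : Q k (ix k x) (ix k y)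
  · have h1 := cnt_pos (mem_range.1 hk) hQ
    rw [if_pos hQ]
    rcases Nat.lt_or_ge lam (cnt N Q k (ix k x) (ix k y)) with h2 | h2
    · rw [if_pos ⟨hQ, h2⟩, sum_eq_zero, zero_add]
      intro c hc
      rw [if_neg]
      rintro ⟨_, h3⟩
      have := (mem_Icc.1 hc).2
      omega
    · rw [if_neg (c := Q k (ix k x) (ix k y) ∧ lam < cnt N Q k (ix k x) (ix k y)) (by
        rintro ⟨_, h3⟩
        omega), add_zero, sum_eq_single (cnt N Q k (ix k x) (ix k y))]
      · rw [if_pos ⟨hQ, rfl⟩]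
      · intro c _ hc
        rw [if_neg]
        rintro ⟨_, h3⟩
        exact hc h3.symm
      · intro h3
        exact absurd (mem_Icc.2 ⟨h1, h2⟩) h3
  · rw [if_neg hQ, if_neg fun h => hQ h.1, add_zero]
    refine (sum_eq_zero fun c _ => ?_).symm
    rw [if_neg fun h => hQ h.1]

end

end Vale.Agent.P141.H856
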